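import Vale.Agent.P179.Tw.Twist

namespace Vale.Agent.Results.P179.LinearBlocks

open Vale.Agent.P179

universe u v

/-- Some simple module in B has dimension one over k. -/
def HasLinear {k : Type v} [Field k] {G : Type u} [Group G] (B : MonoidAlgebra k G) : Prop :=
  ∃ m : SimpleIn B, Module.finrank k (MonoidAlgebra k G ⧸ m.1) = 1

/-- The element Σ_g ν(g) B_g g, the twist of B = Σ_g B_g g by the linear character ν. -/
noncomputable def twist {k : Type v} [Field k] {G : Type u} [Group G] (ν : G →* kˣ)
    (B : MonoidAlgebra k G) : MonoidAlgebra k G :=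
  B.coeff.sum fun g a => MonoidAlgebra.single g (a * (ν g : k))

theorem twist_eq {k : Type v} [Field k] {G : Type u} [Group G] (ν : G →* kˣ)
    (B : MonoidAlgebra k G) : twist ν B = tw ν B := by
  unfold twist
  induction B using MonoidAlgebra.induction_linear with
  | zero => simp
  | add a b ha hb =>
    rw [map_add, ← ha, ← hb, MonoidAlgebra.coeff_add, Finsupp.sum_add_index']
    · simp
    · intro g a b
      rw [add_mul, MonoidAlgebra.single_add]
  | single h r =>
    rw [tw_single]
    simp

/-- (1) The old theorem on the principal block. (2) The same for every block that contains a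
one-dimensional simple module. (3) Such a block exists for every linear character. (4) Twisting
by linear characters preserves blocks, l(B) and |W_p(B)|, for every block. -/
theorem result (p : ℕ) [Fact p.Prime] (k : Type v) [Field k] [IsAlgClosed k] [CharP k p]
    (G : Type u) [Group G] [Finite G] :
    (Nonempty (integralClosure ℤ ℂ →+* k) ∧
    (∃ B : MonoidAlgebra k G, IsBlock k G B ∧ IsPrincipal B) ∧
    ∀ (rho : integralClosure ℤ ℂ →+* k) (B : MonoidAlgebra k G), IsBlock k G B → IsPrincipal B →
      (numSimple B = 1 ↔ numWeights p rho B = 1) ∧ (numWeights p rho B = 1 ↔ PNilpotent p G)) ∧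
    (∀ (rho : integralClosure ℤ ℂ →+* k) (B : MonoidAlgebra k G), IsBlock k G B → HasLinear B →
      (numSimple B = 1 ↔ numWeights p rho B = 1) ∧ (numWeights p rho B = 1 ↔ PNilpotent p G)) ∧
    (∀ ν : G →* kˣ, ∃ B : MonoidAlgebra k G, IsBlock k G B ∧ HasLinear B ∧
      B.coeff.sum (fun g a => a * (ν g : k)) = 1) ∧
    (∀ (rho : integralClosure ℤ ℂ →+* k) (ν : G →* kˣ) (B : MonoidAlgebra k G), IsBlock k G B →
      IsBlock k G (twist ν B) ∧ numSimple (twist ν B) = numSimple B ∧
        numWeights p rho (twist ν B) = numWeights p rho B) := by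
  refine ⟨⟨exists_rho p k, ?_, fun rho B hB hpr => ?_⟩, ?_, ?_, ?_⟩
  · obtain ⟨B, hB, h1⟩ := exists_principal (k := k) (G := G)
    exact ⟨B, hB, (aug_eq_sum B).symm.trans h1⟩
  · exact ⟨(numSimple_iff hB hpr).trans (numWeights_iff rho hB hpr).symm,
      numWeights_iff rho hB hpr⟩
  · exact fun rho B hB h => linear_blocks rho hB h
  · intro ν
    obtain ⟨B, hB, h⟩ := exists_linear_block (k := k) ν
    exact ⟨B, hB, exists_finrank_of_char ν ((aug_tw ν B).trans h), h⟩
  · intro rho ν B hB
    rw [twist_eq]
    exact ⟨isBlock_tw ν hB, numSimple_tw ν B, numWeights_tw' rho ν B⟩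

end Vale.Agent.Results.P179.LinearBlocks
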