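import Vale.Agent.P179.Tw.PTrivB

namespace Vale.Agent.Results.P179.PTrivialBlocks

open Vale.Agent.P179

universe u v

/-- Some simple module in B has dimension one over k. -/
def HasLinear {k : Type v} [Field k] {G : Type u} [Group G] (B : MonoidAlgebra k G) : Prop :=
  ∃ m : SimpleIn B, Module.finrank k (MonoidAlgebra k G ⧸ m.1) = 1

/-- Some irreducible complex character of G with all p-elements in its kernel lies in B. -/
def HasPTrivial {k : Type v} [Field k] (p : ℕ) (rho : integralClosure ℤ ℂ →+* k) {G : Type u}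
    [Group G] (B : MonoidAlgebra k G) : Prop :=
  ∃ (n : ℕ) (σ : Representation ℂ G (Fin n → ℂ)), σ.IsIrreducible ∧
    (∀ g : G, (∃ j : ℕ, g ^ p ^ j = 1) → σ g = 1) ∧
    ∀ m : SimpleIn B, ∀ z ∈ Set.center (MonoidAlgebra k G), ∀ x : MonoidAlgebra k G ⧸ m.1,
      z • x = algebraMap k (MonoidAlgebra k G) (blockChar rho σ.character z) • x

/-- (1) The old theorem on the principal block. (2) The same for every block that contains a
one-dimensional simple module. (3) If B contains an ordinary irreducible character whose kernel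
contains all p-elements, then B has a single simple module iff it has a single weight, and in this
case the subgroup generated by the p-elements is p-nilpotent, so G is p-solvable of p-length at
most one. (4) The principal block is one of these blocks. -/
theorem result (p : ℕ) [Fact p.Prime] (k : Type v) [Field k] [IsAlgClosed k] [CharP k p]
    (G : Type u) [Group G] [Finite G] :
    (Nonempty (integralClosure ℤ ℂ →+* k) ∧
    (∃ B : MonoidAlgebra k G, IsBlock k G B ∧ IsPrincipal B) ∧
    ∀ (rho : integralClosure ℤ ℂ →+* k) (B : MonoidAlgebra k G), IsBlock k G B → IsPrincipal B →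
      (numSimple B = 1 ↔ numWeights p rho B = 1) ∧ (numWeights p rho B = 1 ↔ PNilpotent p G)) ∧
    (∀ (rho : integralClosure ℤ ℂ →+* k) (B : MonoidAlgebra k G), IsBlock k G B → HasLinear B →
      (numSimple B = 1 ↔ numWeights p rho B = 1) ∧ (numWeights p rho B = 1 ↔ PNilpotent p G)) ∧
    (∀ (rho : integralClosure ℤ ℂ →+* k) (B : MonoidAlgebra k G), IsBlock k G B →
      HasPTrivial p rho B →
      (numSimple B = 1 ↔ numWeights p rho B = 1) ∧
      (numSimple B = 1 ∨ numWeights p rho B = 1 →
        PNilpotent p (Subgroup.closure {g : G | ∃ j : ℕ, g ^ p ^ j = 1}) ∧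
        ∃ K M : Subgroup G, K.Normal ∧ M.Normal ∧ K ≤ M ∧ ¬ p ∣ Nat.card K ∧
          (∃ n : ℕ, K.relIndex M = p ^ n) ∧ ¬ p ∣ M.index)) ∧
    (∀ (rho : integralClosure ℤ ℂ →+* k) (B : MonoidAlgebra k G), IsBlock k G B →
      IsPrincipal B → HasPTrivial p rho B) := by
  refine ⟨⟨exists_rho p k, ?_, fun rho B hB hpr => ?_⟩, ?_, ?_, ?_⟩
  · obtain ⟨B, hB, h1⟩ := exists_principal (k := k) (G := G)
    exact ⟨B, hB, (aug_eq_sum B).symm.trans h1⟩
  · exact ⟨(numSimple_iff hB hpr).trans (numWeights_iff rho hB hpr).symm,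
      numWeights_iff rho hB hpr⟩
  · exact fun rho B hB h => linear_blocks rho hB h
  · rintro rho B hB ⟨n, σ, hσ, hp, hin⟩
    refine ⟨numSimple_iff_numWeights rho hB hσ hp hin, fun h1 => ?_⟩
    have h2 := pNilpotent_Op rho hB hσ hp hin h1
    exact ⟨h2, plength_of_pNilpotent h2⟩
  · intro rho B hB hpr
    have hirr := inBlock_principal rho hB ((aug_eq_sum B).trans hpr)
    refine ⟨1, Representation.trivial ℂ G (Fin 1 → ℂ), ?_, fun g _ => rfl, ?_⟩
    · apply irr_of_forall
      intro W _
      have h1 : Module.finrank ℂ (Fin 1 → ℂ) = 1 := by simp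
      have h2 : IsSimpleModule ℂ (Fin 1 → ℂ) := isSimpleModule_iff_finrank_eq_one.2 h1
      exact eq_bot_or_eq_top W
    · have h3 : (Representation.trivial ℂ G (Fin 1 → ℂ)).character = fun _ => (1 : ℂ) := by
        ext h
        have : Representation.trivial ℂ G (Fin 1 → ℂ) h = 1 := rfl
        simp [Representation.character, this]
      rw [h3]
      exact hirr

end Vale.Agent.Results.P179.PTrivialBlocks
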